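import Mathlib

namespace Vale.Agent.P100

/-- `(u, v)` is a positive entire solution of the Henon-Lane-Emden system
`-Δ u = |x|^A v^p`, `-Δ v = |x|^B u^q` on `ℝ^n` minus the origin. -/
structure IsPositiveEntireSolution (n : ℕ) (p q A B : ℝ)
    (u v : EuclideanSpace ℝ (Fin n) → ℝ) : Prop where
  contDiffOn_u : ContDiffOn ℝ 2 u {0}ᶜ
  contDiffOn_v : ContDiffOn ℝ 2 v {0}ᶜ
  continuous_u : Continuous u
  continuous_v : Continuous v
  pos_u : ∀ x, 0 < u x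
  pos_v : ∀ x, 0 < v x
  eq_u : ∀ x, x ≠ 0 → -(Laplacian.laplacian u x) = ‖x‖ ^ A * v x ^ p
  eq_v : ∀ x, x ≠ 0 → -(Laplacian.laplacian v x) = ‖x‖ ^ B * u x ^ q

end Vale.Agent.P100
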